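import Vale.Agent.P370.MathlibUsed

namespace Vale.Agent.P370

open MeasureTheory

abbrev R3 : Type := EuclideanSpace ℝ (Fin 3)

abbrev Wave (N : ℕ) : Type := (Fin N → R3) → (Fin N → Fin 2) → ℂ

structure IsTestState {N : ℕ} (ψ : Wave N) : Prop where
  smooth : ∀ s, ContDiff ℝ (⊤ : ℕ∞) (fun x => ψ x s)
  compactSupport : ∀ s, HasCompactSupport (fun x => ψ x s)
  antisymm : ∀ (π : Equiv.Perm (Fin N)) (x : Fin N → R3) (s : Fin N → Fin 2),
    ψ (fun i => x (π i)) (fun i => s (π i)) = ((Equiv.Perm.sign π : ℤ) : ℂ) * ψ x s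

noncomputable def integ {N : ℕ} (f : (Fin N → R3) → ℝ) : ℝ := ∫ x, f x

noncomputable def partialD {N : ℕ} (ψ : Wave N) (i : Fin N) (k : Fin 3) : Wave N :=
  fun x s => deriv (fun t : ℝ => ψ (Function.update x i (x i + EuclideanSpace.single k t)) s) 0

noncomputable def mass {N : ℕ} (ψ : Wave N) : ℝ := ∑ s, integ (fun x => ‖ψ x s‖ ^ 2)

noncomputable def coulombV {M N : ℕ} (R : Fin M → R3) (Z : Fin M → ℕ) (x : Fin N → R3) : ℝ :=
  -(∑ i, ∑ α, (Z α : ℝ) / dist (x i) (R α)) + ∑ i, ∑ j ∈ Finset.Ioi i, 1 / dist (x i) (x j)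

noncomputable def energyForm {M N : ℕ} (R : Fin M → R3) (Z : Fin M → ℕ) (ψ : Wave N) : ℝ :=
  (1 / 2) * ∑ i, ∑ k, mass (partialD ψ i k) +
    ∑ s, integ (fun x => coulombV R Z x * ‖ψ x s‖ ^ 2)

noncomputable def groundEnergy {M : ℕ} (R : Fin M → R3) (Z : Fin M → ℕ) (N : ℕ) : EReal :=
  ⨅ (ψ : Wave N) (_ : IsTestState ψ) (_ : mass ψ = 1), (energyForm R Z ψ : EReal)

structure Instance where
  M : ℕ
  pos : Fin M → Fin 3 → ℚ
  charge : Fin M → ℕ
  N : ℕ
  a : ℚ
  b : ℚ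

structure Instance.Valid (I : Instance) : Prop where
  M_pos : 1 ≤ I.M
  distinct : Function.Injective I.pos
  charge_pos : ∀ α, 1 ≤ I.charge α
  N_pos : 1 ≤ I.N
  thresholds : I.a < I.b

noncomputable def Instance.E0 (I : Instance) : EReal :=
  groundEnergy (fun α => WithLp.toLp 2 (fun k => (I.pos α k : ℝ))) I.charge I.N

def encNat (n : ℕ) : List Bool := n.bits.flatMap (fun b => [true, b]) ++ [false]

def encRat (q : ℚ) : List Bool := decide (q < 0) :: (encNat q.num.natAbs ++ encNat q.den)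

def encInstance (I : Instance) : List Bool :=
  (List.finRange I.M).flatMap (fun α => true ::
    (encRat (I.pos α 0) ++ encRat (I.pos α 1) ++ encRat (I.pos α 2) ++ encNat (I.charge α))) ++
  [false] ++ List.replicate I.N true ++ [false] ++ encRat I.a ++ encRat I.b

structure PromiseProblem where
  yes : Set (List Bool)
  no : Set (List Bool)

def electronicStructure (c : ℕ) : PromiseProblem where
  yes := {w | ∃ I : Instance, I.Valid ∧ encInstance I = w ∧
    1 / (w.length : ℚ) ^ c ≤ I.b - I.a ∧ I.E0 ≤ ((I.a : ℝ) : EReal)}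
  no := {w | ∃ I : Instance, I.Valid ∧ encInstance I = w ∧
    1 / (w.length : ℚ) ^ c ≤ I.b - I.a ∧ ((I.b : ℝ) : EReal) ≤ I.E0}

end Vale.Agent.P370
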