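import Vale.Agent.P370.Core

namespace Vale.Agent.P370

/-- Functions on words computed by a polynomial time Turing machine (Mathlib's `TM2` model, all
stack alphabets finite). -/
def PolyTimeFn (f : List Bool → List Bool) : Prop :=
  ∃ M : Turing.TM2ComputableInPolyTime (id : List Bool → List Bool) (id : List Bool → List Bool) f,
    ∀ k, Finite (M.tm.Γ k)

/-- polynomial-time many-one (Karp) reductions between promise problems -/
def KarpReduces (A B : PromiseProblem) : Prop :=
  ∃ f, PolyTimeFn f ∧ (∀ w ∈ A.yes, f w ∈ B.yes) ∧ (∀ w ∈ A.no, f w ∈ B.no)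

/-- The word `1^a 0 1^b 0 1^c 0 ...` is read as the list of numbers `a, b, c, ...`. -/
def blocks (w : List Bool) : List ℕ :=
  w.foldr (fun b l => bif b then (l.headD 0 + 1) :: l.tail else 0 :: l) []

end Vale.Agent.P370
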