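import Vale.Agent.P370.QCore

namespace Vale.Agent.P370

/-- states of `n` qubits (amplitudes in the computational basis) -/
abbrev QState (n : ℕ) : Type := (Fin n → Bool) → ℂ

/-- Gates: number `0` is the Hadamard gate on qubit `i`, number `1` the gate `T = diag(1, e^{iπ/4})`
on qubit `i`, all other numbers are `CNOT` with control `i` and target `j`. Gates with invalid
qubits do nothing. -/
noncomputable def gateAct {n : ℕ} (kind i j : ℕ) (ψ : QState n) : QState n :=
  if hi : i < n then
    if kind = 0 then fun x =>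
      (ψ (Function.update x ⟨i, hi⟩ false) +
        (if x ⟨i, hi⟩ then -1 else 1) * ψ (Function.update x ⟨i, hi⟩ true)) / (√2 : ℝ)
    else if kind = 1 then fun x =>
      (if x ⟨i, hi⟩ then Complex.exp (Complex.I * (Real.pi / 4 : ℝ)) else 1) * ψ x
    else if hj : j < n then
      if i = j then ψ
      else fun x => ψ (if x ⟨i, hi⟩ then Function.update x ⟨j, hj⟩ (!x ⟨j, hj⟩) else x)
    else ψ
  else ψ

/-- Number of qubits of the circuit encoded by the word `z` (at least one). -/
def cQubits (z : List Bool) : ℕ := (blocks z).getD 0 0 + 1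

/-- number of witness qubits -/
def cWitness (z : List Bool) : ℕ := (blocks z).getD 1 0

/-- The circuit: the third and the following blocks are the triples `kind, i, j` of the gates. -/
noncomputable def runCircuit (z : List Bool) (ψ : QState (cQubits z)) : QState (cQubits z) :=
  (List.range (((blocks z).length - 2) / 3)).foldl (fun φ t =>
    gateAct ((blocks z).getD (3 * t + 2) 0) ((blocks z).getD (3 * t + 3) 0)
      ((blocks z).getD (3 * t + 4) 0) φ) ψ

/-- Inputs of the circuit: unit vectors `witness ⊗ |0...0⟩`. -/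
def IsInput (z : List Bool) (ψ : QState (cQubits z)) : Prop :=
  ∑ x, ‖ψ x‖ ^ 2 = 1 ∧ ∀ x (i : Fin (cQubits z)), cWitness z ≤ (i : ℕ) → x i = true → ψ x = 0

/-- probability that the measurement of qubit `0` after the circuit gives `1` -/
noncomputable def accProb (z : List Bool) (ψ : QState (cQubits z)) : ℝ :=
  ∑ x, if x ⟨0, Nat.succ_pos _⟩ then ‖runCircuit z ψ x‖ ^ 2 else 0

/-- **QMA**: `f w` is the verifier circuit of the input `w`. -/
def QMA : Set PromiseProblem :=
  {A | ∃ f, PolyTimeFn f ∧
    (∀ w ∈ A.yes, ∃ ψ, IsInput (f w) ψ ∧ 2 / 3 ≤ accProb (f w) ψ) ∧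
    (∀ w ∈ A.no, ∀ ψ, IsInput (f w) ψ → accProb (f w) ψ ≤ 1 / 3)}

end Vale.Agent.P370
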