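import Vale.Agent.P370.QCore

namespace Vale.Agent.P370

/-- self-delimiting code of the pair `(x, y)` -/
def pairW (x y : List Bool) : List Bool := x.flatMap (fun b => [true, b]) ++ false :: y

/-- Polynomial-time Turing reductions between promise problems. `q (w, answers so far)` is the next
query, `out (w, all answers)` the output. Queries outside of the promise may be answered
arbitrarily. -/
def TuringReduces (A B : PromiseProblem) : Prop :=
  ∃ (q out : List Bool → List Bool) (T : Polynomial ℕ), PolyTimeFn q ∧ PolyTimeFn out ∧
    ∀ w ans : List Bool, ans.length = T.eval w.length →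
      (∀ (t : ℕ) (ht : t < ans.length),
        (q (pairW w (ans.take t)) ∈ B.yes → ans[t] = true) ∧
        (q (pairW w (ans.take t)) ∈ B.no → ans[t] = false)) →
      (w ∈ A.yes → out (pairW w ans) = [true]) ∧ (w ∈ A.no → out (pairW w ans) = [false])

end Vale.Agent.P370
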