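import Vale.Agent.P370.Defs
import Vale.Agent.P370.QTur

namespace Vale.Agent.P370

open ComplexConjugate

/-- number of spins -/
def hK (w : List Bool) : ℕ := (blocks w).getD 0 0

/-- threshold -/
def hA (w : List Bool) : ℕ := (blocks w).getD 1 0

/-- weights -/
def hM (w : List Bool) (i j : ℕ) : ℕ := (blocks w).getD (2 + i * hK w + j) 0

/-- `⟨φ, ∑_{i<j} m_ij (X_i X_j + Y_i Y_j + Z_i Z_j) φ⟩`, using
`X_i X_j + Y_i Y_j + Z_i Z_j = 2 SWAP_ij - 1` -/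
noncomputable def heisenbergForm {K : ℕ} (m : ℕ → ℕ → ℕ) (φ : (Fin K → Fin 2) → ℂ) : ℝ :=
  ∑ i : Fin K, ∑ j ∈ Finset.Ioi i, (m i j : ℝ) *
    (2 * (∑ s, conj (φ s) * φ (s ∘ Equiv.swap i j)).re - ∑ s, ‖φ s‖ ^ 2)

/-- The antiferromagnetic Heisenberg model on arbitrary weighted graphs: weights and threshold are
natural numbers in unary; is the ground energy at most `-A`, or at least `-A + 1`? -/
def heisenbergAF : PromiseProblem where
  yes := {w | ∃ φ : (Fin (hK w) → Fin 2) → ℂ, ∑ s, ‖φ s‖ ^ 2 = 1 ∧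
    heisenbergForm (hM w) φ ≤ -(hA w : ℝ)}
  no := {w | ∀ φ : (Fin (hK w) → Fin 2) → ℂ, ∑ s, ‖φ s‖ ^ 2 = 1 →
    -(hA w : ℝ) + 1 ≤ heisenbergForm (hM w) φ}

end Vale.Agent.P370
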