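import Vale.Agent.P370.Core

namespace Vale.Agent.P370

open MeasureTheory

def protonStructure (c : ℕ) : PromiseProblem where
  yes := {w | ∃ I : Instance, (∀ α, I.charge α = 1) ∧ I.Valid ∧ encInstance I = w ∧
    1 / (w.length : ℚ) ^ c ≤ I.b - I.a ∧ I.E0 ≤ ((I.a : ℝ) : EReal)}
  no := {w | ∃ I : Instance, (∀ α, I.charge α = 1) ∧ I.Valid ∧ encInstance I = w ∧
    1 / (w.length : ℚ) ^ c ≤ I.b - I.a ∧ ((I.b : ℝ) : EReal) ≤ I.E0}

inductive PolyTime : (k : ℕ) → ((Fin k → List Bool) → List Bool) → Prop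
  | nil (k : ℕ) : PolyTime k (fun _ => [])
  | cons (b : Bool) : PolyTime 1 (fun v => b :: v 0)
  | tail : PolyTime 1 (fun v => (v 0).tail)
  | proj (k : ℕ) (i : Fin k) : PolyTime k (fun v => v i)
  | comp (k m : ℕ) (f : (Fin m → List Bool) → List Bool)
      (g : Fin m → (Fin k → List Bool) → List Bool) :
      PolyTime m f → (∀ i, PolyTime k (g i)) → PolyTime k (fun v => f (fun i => g i v))
  | recn (k C d : ℕ) (g : (Fin k → List Bool) → List Bool)
      (h : Bool → (Fin (k + 2) → List Bool) → List Bool)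
      (f : List Bool → (Fin k → List Bool) → List Bool) :
      PolyTime k g → (∀ b, PolyTime (k + 2) (h b)) →
      (∀ v, f [] v = g v) →
      (∀ b y v, f (b :: y) v = h b (Fin.cons y (Fin.cons (f y v) v))) →
      (∀ y v, (f y v).length ≤ C * (1 + y.length + ∑ i, (v i).length) ^ d) →
      PolyTime (k + 1) (fun v => f (v 0) (Fin.tail v))

def Reduces (A B : PromiseProblem) : Prop :=
  ∃ f, PolyTime 1 f ∧ (∀ w ∈ A.yes, f ![w] ∈ B.yes) ∧ (∀ w ∈ A.no, f ![w] ∈ B.no)

def lead (w : List Bool) : ℕ := (w.takeWhile id).length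

def gN (w : List Bool) : ℕ := lead w

def gK (w : List Bool) : ℕ := lead (w.drop (gN w + 1))

def gBit (w : List Bool) (p : ℕ) : Bool := (w.drop (gN w + gK w + 2 + p)).headD false

def gAdj (w : List Bool) (i j : ℕ) : Bool := decide (i < j ∧ j < gN w) && gBit w (i * gN w + j)

def cutSize (w : List Bool) (S : Finset ℕ) : ℕ :=
  ((Finset.range (gN w) ×ˢ Finset.range (gN w)).filter
    (fun p => gAdj w p.1 p.2 = true ∧ ¬ (p.1 ∈ S ↔ p.2 ∈ S))).card

def maxCut : PromiseProblem where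
  yes := {w | ∃ S, gK w ≤ cutSize w S}
  no := {w | ∀ S, cutSize w S < gK w}

end Vale.Agent.P370
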