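import Mathlib
import Vale.Agent.P370.Defs

/-!
Working versions of the energy functional (with `fderiv`), and the bridge to the statement-level
definitions.
-/

namespace Vale.Agent.P370

open MeasureTheory

noncomputable def normSq {N : ℕ} (ψ : Wave N) : ℝ := ∑ s, ∫ x, ‖ψ x s‖ ^ 2

noncomputable def kinetic {N : ℕ} (ψ : Wave N) : ℝ :=
  (1 / 2) * ∑ s, ∑ i, ∑ k : Fin 3,
    ∫ x, ‖fderiv ℝ (fun y => ψ y s) x (Pi.single i (EuclideanSpace.single k 1))‖ ^ 2

noncomputable def energy {M N : ℕ} (R : Fin M → R3) (Z : Fin M → ℕ) (ψ : Wave N) : ℝ :=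
  kinetic ψ + ∑ s, ∫ x, coulombV R Z x * ‖ψ x s‖ ^ 2

theorem mass_eq {N : ℕ} (ψ : Wave N) : mass ψ = normSq ψ := rfl

theorem update_eq {N : ℕ} (x : Fin N → R3) (i : Fin N) (k : Fin 3) (t : ℝ) :
    Function.update x i (x i + EuclideanSpace.single k t) =
      x + t • (Pi.single i (EuclideanSpace.single k (1 : ℝ)) : Fin N → R3) := by
  funext j
  by_cases h : j = i
  · subst h
    rw [Function.update_self, Pi.add_apply, Pi.smul_apply, Pi.single_eq_same]
    congr 1
    ext l
    simp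
  · rw [Function.update_of_ne h, Pi.add_apply, Pi.smul_apply, Pi.single_eq_of_ne h, smul_zero,
      add_zero]

theorem partialD_eq {N : ℕ} {ψ : Wave N} (hψ : IsTestState ψ) (i : Fin N) (k : Fin 3)
    (x : Fin N → R3) (s : Fin N → Fin 2) :
    partialD ψ i k x s =
      fderiv ℝ (fun y => ψ y s) x (Pi.single i (EuclideanSpace.single k 1)) := by
  unfold partialD
  simp only [update_eq]
  have hd : DifferentiableAt ℝ (fun y => ψ y s) x :=
    (hψ.smooth s).differentiable (by simp) x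
  exact hd.lineDeriv_eq_fderiv

theorem energyForm_eq {M N : ℕ} (R : Fin M → R3) (Z : Fin M → ℕ) {ψ : Wave N}
    (hψ : IsTestState ψ) : energyForm R Z ψ = energy R Z ψ := by
  unfold energyForm energy kinetic mass integ
  simp only [partialD_eq hψ]
  congr 2
  have h1 : ∀ i : Fin N, (∑ k : Fin 3, ∑ s : Fin N → Fin 2,
      ∫ x, ‖fderiv ℝ (fun y => ψ y s) x (Pi.single i (EuclideanSpace.single k 1))‖ ^ 2) =
      ∑ s : Fin N → Fin 2, ∑ k : Fin 3,
      ∫ x, ‖fderiv ℝ (fun y => ψ y s) x (Pi.single i (EuclideanSpace.single k 1))‖ ^ 2 :=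
    fun i => Finset.sum_comm
  simp only [h1]
  exact Finset.sum_comm

end Vale.Agent.P370
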