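import Mathlib
import Vale.Agent.P370.Defs

namespace Vale.Agent.P370

/-- unary number -/
def un (n : ℕ) : List Bool := List.replicate n true

@[simp] theorem un_length (n : ℕ) : (un n).length = n := by simp [un]

theorem un_succ (n : ℕ) : un (n + 1) = true :: un n := rfl

theorem un_add (m n : ℕ) : un (m + n) = un m ++ un n := by
  simp only [un, List.replicate_append_replicate]

/-- `F` is a polynomial-time number-valued function (values in unary) -/
def PN (k : ℕ) (F : (Fin k → List Bool) → ℕ) : Prop := PolyTime k (fun v => un (F v))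

theorem PolyTime.congr {k : ℕ} {f g : (Fin k → List Bool) → List Bool} (hf : PolyTime k f)
    (h : ∀ v, f v = g v) : PolyTime k g := by
  have : f = g := funext h
  rwa [← this]

theorem PN.congr {k : ℕ} {F G : (Fin k → List Bool) → ℕ} (hF : PN k F)
    (h : ∀ v, F v = G v) : PN k G := by
  have : F = G := funext h
  rwa [← this]

/-- composition with a unary function -/
theorem PolyTime.comp1 {k : ℕ} {f : (Fin 1 → List Bool) → List Bool}
    {g : (Fin k → List Bool) → List Bool} (hf : PolyTime 1 f) (hg : PolyTime k g) :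
    PolyTime k (fun v => f ![g v]) := by
  have := PolyTime.comp k 1 f (fun _ => g) hf (fun _ => hg)
  refine this.congr (fun v => ?_)
  congr 1
  funext i
  fin_cases i
  rfl

theorem PolyTime.comp2 {k : ℕ} {f : (Fin 2 → List Bool) → List Bool}
    {g h : (Fin k → List Bool) → List Bool} (hf : PolyTime 2 f) (hg : PolyTime k g)
    (hh : PolyTime k h) :
    PolyTime k (fun v => f ![g v, h v]) := by
  have := PolyTime.comp k 2 f ![g, h] hf (by
    intro i
    fin_cases i
    · exact hg
    · exact hh)
  refine this.congr (fun v => ?_)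
  congr 1
  funext i
  fin_cases i <;> rfl

theorem PolyTime.cons' {k : ℕ} (b : Bool) {f : (Fin k → List Bool) → List Bool}
    (hf : PolyTime k f) : PolyTime k (fun v => b :: f v) := by
  have := PolyTime.comp1 (PolyTime.cons b) hf
  simpa using this

theorem PolyTime.tail' {k : ℕ} {f : (Fin k → List Bool) → List Bool}
    (hf : PolyTime k f) : PolyTime k (fun v => (f v).tail) := by
  have := PolyTime.comp1 PolyTime.tail hf
  simpa using this

theorem PolyTime.const (k : ℕ) (l : List Bool) : PolyTime k (fun _ => l) := by
  induction l with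
  | nil => exact PolyTime.nil k
  | cons b l ih => exact PolyTime.cons' b ih

theorem PN.const (k c : ℕ) : PN k (fun _ => c) := PolyTime.const k _

theorem sum_le_bound {k : ℕ} (v : Fin k → List Bool) (i : Fin k) :
    (v i).length ≤ ∑ i, (v i).length :=
  Finset.single_le_sum (f := fun i => (v i).length) (fun _ _ => Nat.zero_le _) (Finset.mem_univ i)

/-- Recursion on notation of an expression, with the parameters being the context itself. -/
theorem PolyTime.rec' {k : ℕ} {e g : (Fin k → List Bool) → List Bool}
    {h : Bool → (Fin (k + 2) → List Bool) → List Bool}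
    (C d : ℕ) (f : List Bool → (Fin k → List Bool) → List Bool)
    (he : PolyTime k e) (hg : PolyTime k g) (hh : ∀ b, PolyTime (k + 2) (h b))
    (h0 : ∀ v, f [] v = g v)
    (h1 : ∀ b y v, f (b :: y) v = h b (Fin.cons y (Fin.cons (f y v) v)))
    (hb : ∀ y v, (f y v).length ≤ C * (1 + y.length + ∑ i, (v i).length) ^ d) :
    PolyTime k (fun v => f (e v) v) := by
  have h2 := PolyTime.recn k C d g h f hg hh h0 h1 hb
  have h3 := PolyTime.comp k (k + 1) (fun v => f (v 0) (Fin.tail v))
    (Fin.cons e (fun i v => v i)) h2 (by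
      intro i
      refine Fin.cases ?_ ?_ i
      · exact he
      · intro j
        exact PolyTime.proj k j)
  refine h3.congr (fun v => ?_)
  simp only [Fin.cons_zero]
  congr 1

/-! ### length bounds -/

theorem PolyTime.length_bound {k : ℕ} {f : (Fin k → List Bool) → List Bool} (hf : PolyTime k f) :
    ∃ C d : ℕ, ∀ v, (f v).length ≤ C * (1 + ∑ i, (v i).length) ^ d := by
  induction hf with
  | nil k => exact ⟨0, 0, fun v => by simp⟩
  | cons b => exact ⟨1, 1, fun v => by simp <;> omega⟩
  | tail => exact ⟨1, 1, fun v => by simp <;> omega⟩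
  | proj k i =>
    refine ⟨1, 1, fun v => ?_⟩
    have := sum_le_bound v i
    simp only [one_mul, pow_one]
    omega
  | comp k m f g hf hg ihf ihg =>
    obtain ⟨C, d, h⟩ := ihf
    choose C' d' h' using ihg
    -- bound each g i by S * X ^ D
    refine ⟨C * (1 + ∑ i, C' i) ^ d, (∑ i, d' i) * d, fun v => ?_⟩
    set X := 1 + ∑ i, (v i).length with hX
    have hX1 : 1 ≤ X := by omega
    have hs : 1 + ∑ i, (g i v).length ≤ (1 + ∑ i, C' i) * X ^ (∑ i, d' i) := by
      have h5 : ∀ i, (g i v).length ≤ C' i * X ^ (∑ i, d' i) := fun i => by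
        refine (h' i v).trans ?_
        refine Nat.mul_le_mul_left _ ?_
        refine Nat.pow_le_pow_right hX1 ?_
        exact Finset.single_le_sum (f := d') (fun _ _ => Nat.zero_le _) (Finset.mem_univ i)
      calc 1 + ∑ i, (g i v).length ≤ X ^ (∑ i, d' i) + ∑ i, C' i * X ^ (∑ i, d' i) := by
            refine Nat.add_le_add (Nat.one_le_pow _ _ hX1) (Finset.sum_le_sum (fun i _ => h5 i))
        _ = (1 + ∑ i, C' i) * X ^ (∑ i, d' i) := by
            rw [← Finset.sum_mul]; ring
    calc (f fun i => g i v).length ≤ C * (1 + ∑ i, (g i v).length) ^ d := h _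
      _ ≤ C * ((1 + ∑ i, C' i) * X ^ (∑ i, d' i)) ^ d :=
          Nat.mul_le_mul_left _ (Nat.pow_le_pow_left hs d)
      _ = C * (1 + ∑ i, C' i) ^ d * X ^ ((∑ i, d' i) * d) := by
          rw [mul_pow, ← pow_mul]; ring
  | recn k C d g h f hg hh h0 h1 hb ihg ihh =>
    refine ⟨C, d, fun v => ?_⟩
    refine (hb (v 0) (Fin.tail v)).trans ?_
    rw [Fin.sum_univ_succ]
    refine Nat.mul_le_mul_left _ (Nat.pow_le_pow_left ?_ d)
    simp only [Fin.tail]
    omega

theorem pow_bound {C d X Y : ℕ} (hXY : X ≤ Y) (hX : 1 ≤ X) : C * X ^ d ≤ C * Y ^ (d + 1) :=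
  Nat.mul_le_mul_left _ ((Nat.pow_le_pow_left hXY d).trans
    (Nat.pow_le_pow_right (hX.trans hXY) (Nat.le_succ d)))

/-- lifting to a context with two more variables in front -/
theorem PolyTime.lift2 {k : ℕ} {f : (Fin k → List Bool) → List Bool} (hf : PolyTime k f) :
    PolyTime (k + 2) (fun w => f (fun i => w i.succ.succ)) :=
  PolyTime.comp (k + 2) k f (fun i w => w i.succ.succ) hf
    (fun i => PolyTime.proj (k + 2) i.succ.succ)

theorem PolyTime.lift1 {k : ℕ} {f : (Fin k → List Bool) → List Bool} (hf : PolyTime k f) :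
    PolyTime (k + 1) (fun w => f (fun i => w i.succ)) :=
  PolyTime.comp (k + 1) k f (fun i w => w i.succ) hf
    (fun i => PolyTime.proj (k + 1) i.succ)

theorem PN.lift2 {k : ℕ} {F : (Fin k → List Bool) → ℕ} (hF : PN k F) :
    PN (k + 2) (fun w => F (fun i => w i.succ.succ)) := PolyTime.lift2 hF

theorem PN.lift1 {k : ℕ} {F : (Fin k → List Bool) → ℕ} (hF : PN k F) :
    PN (k + 1) (fun w => F (fun i => w i.succ)) := PolyTime.lift1 hF

theorem PolyTime.append {k : ℕ} {f g : (Fin k → List Bool) → List Bool} (hf : PolyTime k f)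
    (hg : PolyTime k g) : PolyTime k (fun v => f v ++ g v) := by
  obtain ⟨C, d, hC⟩ := hg.length_bound
  refine PolyTime.rec' (h := fun b w => b :: w 1) (C + 1) (d + 1) (fun y v => y ++ g v) hf hg
    (fun b => PolyTime.cons' b (PolyTime.proj (k + 2) 1)) (fun v => rfl) (fun b y v => rfl) ?_
  intro y v
  have h1 := hC v
  simp only [List.length_append]
  set S := ∑ i, (v i).length
  have h2 : C * (1 + S) ^ d ≤ C * (1 + y.length + S) ^ (d + 1) := pow_bound (by omega) (by omega)
  have h3 : y.length ≤ (1 + y.length + S) ^ (d + 1) := by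
    calc y.length ≤ 1 + y.length + S := by omega
      _ ≤ (1 + y.length + S) ^ (d + 1) := Nat.le_self_pow (by omega) _
  rw [add_mul, one_mul]
  omega

theorem PN.len {k : ℕ} {f : (Fin k → List Bool) → List Bool} (hf : PolyTime k f) :
    PN k (fun v => (f v).length) := by
  refine PolyTime.rec' (h := fun _ w => true :: w 1) (g := fun _ => []) 1 1
    (fun y _ => un y.length) hf (PolyTime.nil k)
    (fun b => PolyTime.cons' true (PolyTime.proj (k + 2) 1)) (fun v => rfl) (fun b y v => rfl) ?_
  intro y v
  simp only [un_length, one_mul, pow_one]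
  omega

theorem PN.add {k : ℕ} {F G : (Fin k → List Bool) → ℕ} (hF : PN k F) (hG : PN k G) :
    PN k (fun v => F v + G v) := by
  refine (PolyTime.append hF hG).congr (fun v => ?_)
  rw [un_add]

theorem PN.bound {k : ℕ} {F : (Fin k → List Bool) → ℕ} (hF : PN k F) :
    ∃ C d : ℕ, ∀ v, F v ≤ C * (1 + ∑ i, (v i).length) ^ d := by
  obtain ⟨C, d, h⟩ := PolyTime.length_bound hF
  exact ⟨C, d, fun v => by simpa using h v⟩

/-- Recursion along a unary number. -/
theorem PolyTime.natRec {k : ℕ} {N : (Fin k → List Bool) → ℕ}
    {g : (Fin k → List Bool) → List Bool} {h : (Fin (k + 2) → List Bool) → List Bool}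
    (C d : ℕ) (f : ℕ → (Fin k → List Bool) → List Bool)
    (hN : PN k N) (hg : PolyTime k g) (hh : PolyTime (k + 2) h)
    (h0 : ∀ v, f 0 v = g v)
    (h1 : ∀ n v, f (n + 1) v = h (Fin.cons (un n) (Fin.cons (f n v) v)))
    (hb : ∀ n v, (f n v).length ≤ C * (1 + n + ∑ i, (v i).length) ^ d) :
    PolyTime k (fun v => f (N v) v) := by
  have hh' : PolyTime (k + 2) (fun w => h (Fin.cons (un (w 0).length) (Fin.tail w))) := by
    have := PolyTime.comp (k + 2) (k + 2) h
      (Fin.cons (fun w => un (w 0).length) (fun i w => w i.succ)) hh (by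
        intro i
        refine Fin.cases ?_ ?_ i
        · exact PN.len (PolyTime.proj (k + 2) 0)
        · intro j
          exact PolyTime.proj (k + 2) j.succ)
    refine this.congr (fun v => ?_)
    congr 1
    funext i
    refine Fin.cases ?_ ?_ i
    · rfl
    · intro j
      rfl
  have := PolyTime.rec' (h := fun _ w => h (Fin.cons (un (w 0).length) (Fin.tail w))) C d
    (fun y v => f y.length v) hN hg (fun _ => hh') h0 (fun b y v => h1 y.length v)
    (fun y v => hb y.length v)
  refine this.congr (fun v => ?_)
  simp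

theorem PN.mul {k : ℕ} {F G : (Fin k → List Bool) → ℕ} (hF : PN k F) (hG : PN k G) :
    PN k (fun v => F v * G v) := by
  obtain ⟨C, d, hC⟩ := hG.bound
  refine PolyTime.natRec (g := fun _ => [])
    (h := fun w => un (G (fun i => w i.succ.succ)) ++ w 1)
    C (d + 1) (fun n v => un (n * G v)) hF (PolyTime.nil k)
    (PolyTime.append (PN.lift2 hG) (PolyTime.proj (k + 2) 1)) (fun v => by simp [un])
    (fun n v => ?_) (fun n v => ?_)
  · rw [Nat.succ_mul, add_comm, un_add]
    rfl
  · simp only [un_length]
    have h1 := hC v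
    set S := ∑ i, (v i).length
    calc n * G v ≤ (1 + n + S) * (C * (1 + S) ^ d) := Nat.mul_le_mul (by omega) h1
      _ ≤ (1 + n + S) * (C * (1 + n + S) ^ d) :=
          Nat.mul_le_mul_left _ (Nat.mul_le_mul_left _ (Nat.pow_le_pow_left (by omega) d))
      _ = C * (1 + n + S) ^ (d + 1) := by ring

theorem PN.pow {k : ℕ} {F : (Fin k → List Bool) → ℕ} (hF : PN k F) (e : ℕ) :
    PN k (fun v => F v ^ e) := by
  induction e with
  | zero => exact (PN.const k 1).congr (fun v => by simp)
  | succ e ih => exact (PN.mul ih hF).congr (fun v => by rw [pow_succ])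

theorem PolyTime.drop {k : ℕ} {f : (Fin k → List Bool) → List Bool}
    {F : (Fin k → List Bool) → ℕ} (hf : PolyTime k f) (hF : PN k F) :
    PolyTime k (fun v => (f v).drop (F v)) := by
  obtain ⟨C, d, hC⟩ := hf.length_bound
  refine PolyTime.natRec (g := f) (h := fun w => (w 1).tail)
    C (d + 1) (fun n v => (f v).drop n) hF hf
    (PolyTime.tail' (PolyTime.proj (k + 2) 1)) (fun v => by simp)
    (fun n v => ?_) (fun n v => ?_)
  · simp only [Fin.cons_one, Fin.cons_zero, List.tail_drop]
  · simp only [List.length_drop]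
    have h1 := hC v
    set S := ∑ i, (v i).length
    have h2 : C * (1 + S) ^ d ≤ C * (1 + n + S) ^ (d + 1) := pow_bound (by omega) (by omega)
    omega

theorem PN.sub {k : ℕ} {F G : (Fin k → List Bool) → ℕ} (hF : PN k F) (hG : PN k G) :
    PN k (fun v => F v - G v) := by
  refine (PolyTime.drop hF hG).congr (fun v => ?_)
  simp [un]

/-- test for emptiness -/
theorem PolyTime.ite_nil {k : ℕ} {f p q : (Fin k → List Bool) → List Bool} (hf : PolyTime k f)
    (hp : PolyTime k p) (hq : PolyTime k q) :
    PolyTime k (fun v => if f v = [] then p v else q v) := by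
  obtain ⟨C, d, hC⟩ := hp.length_bound
  obtain ⟨C', d', hC'⟩ := hq.length_bound
  refine PolyTime.rec' (h := fun _ w => q (fun i => w i.succ.succ)) (g := p) (C + C') (d + d')
    (fun y v => if y = [] then p v else q v) hf hp
    (fun b => PolyTime.lift2 hq) (fun v => by simp) (fun b y v => ?_) ?_
  · simp only [reduceCtorEq, if_false]
    rfl
  · intro y v
    have h1 := hC v
    have h2 := hC' v
    set S := ∑ i, (v i).length
    have h3 : C * (1 + S) ^ d ≤ C * (1 + y.length + S) ^ (d + d') :=
      Nat.mul_le_mul_left _ ((Nat.pow_le_pow_left (by omega) d).trans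
        (Nat.pow_le_pow_right (by omega) (by omega)))
    have h4 : C' * (1 + S) ^ d' ≤ C' * (1 + y.length + S) ^ (d + d') :=
      Nat.mul_le_mul_left _ ((Nat.pow_le_pow_left (by omega) d').trans
        (Nat.pow_le_pow_right (by omega) (by omega)))
    rw [add_mul]
    split_ifs <;> omega

theorem un_eq_nil {n : ℕ} : un n = [] ↔ n = 0 := by
  simp [un]

theorem PolyTime.ite_le {k : ℕ} {F G : (Fin k → List Bool) → ℕ}
    {p q : (Fin k → List Bool) → List Bool} (hF : PN k F) (hG : PN k G)
    (hp : PolyTime k p) (hq : PolyTime k q) :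
    PolyTime k (fun v => if F v ≤ G v then p v else q v) := by
  refine (PolyTime.ite_nil (PN.sub hF hG) hp hq).congr (fun v => ?_)
  simp only [un_eq_nil, Nat.sub_eq_zero_iff_le]

theorem PN.ite_le {k : ℕ} {F G P Q : (Fin k → List Bool) → ℕ} (hF : PN k F) (hG : PN k G)
    (hP : PN k P) (hQ : PN k Q) : PN k (fun v => if F v ≤ G v then P v else Q v) := by
  refine (PolyTime.ite_le hF hG hP hQ).congr (fun v => ?_)
  by_cases h : F v ≤ G v <;> simp only [h, if_true, if_false]

theorem PolyTime.ite_lt {k : ℕ} {F G : (Fin k → List Bool) → ℕ}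
    {p q : (Fin k → List Bool) → List Bool} (hF : PN k F) (hG : PN k G)
    (hp : PolyTime k p) (hq : PolyTime k q) :
    PolyTime k (fun v => if F v < G v then p v else q v) := by
  refine (PolyTime.ite_le hG hF hq hp).congr (fun v => ?_)
  by_cases h : F v < G v
  · rw [if_pos h, if_neg (by omega)]
  · rw [if_neg h, if_pos (by omega)]

theorem PN.ite_lt {k : ℕ} {F G P Q : (Fin k → List Bool) → ℕ} (hF : PN k F) (hG : PN k G)
    (hP : PN k P) (hQ : PN k Q) : PN k (fun v => if F v < G v then P v else Q v) := by
  refine (PolyTime.ite_lt hF hG hP hQ).congr (fun v => ?_)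
  by_cases h : F v < G v <;> simp only [h, if_true, if_false]

theorem PolyTime.ite_eq {k : ℕ} {F G : (Fin k → List Bool) → ℕ}
    {p q : (Fin k → List Bool) → List Bool} (hF : PN k F) (hG : PN k G)
    (hp : PolyTime k p) (hq : PolyTime k q) :
    PolyTime k (fun v => if F v = G v then p v else q v) := by
  refine (PolyTime.ite_le hF hG (PolyTime.ite_le hG hF hp hq) hq).congr (fun v => ?_)
  by_cases h : F v = G v
  · rw [if_pos h, if_pos h.le, if_pos h.ge]
  · rw [if_neg h]
    split_ifs with h1 h2
    · omega
    · rfl
    · rfl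

theorem PN.ite_eq {k : ℕ} {F G P Q : (Fin k → List Bool) → ℕ} (hF : PN k F) (hG : PN k G)
    (hP : PN k P) (hQ : PN k Q) : PN k (fun v => if F v = G v then P v else Q v) := by
  refine (PolyTime.ite_eq hF hG hP hQ).congr (fun v => ?_)
  by_cases h : F v = G v <;> simp only [h, if_true, if_false]

/-- substituting a term for the bound variable -/
theorem PolyTime.bind {k : ℕ} {f : (Fin (k + 1) → List Bool) → List Bool}
    {e : (Fin k → List Bool) → List Bool} (hf : PolyTime (k + 1) f) (he : PolyTime k e) :
    PolyTime k (fun v => f (Fin.cons (e v) v)) := by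
  have := PolyTime.comp k (k + 1) f (Fin.cons e (fun i v => v i)) hf (by
      intro i
      refine Fin.cases ?_ ?_ i
      · exact he
      · intro j
        exact PolyTime.proj k j)
  refine this.congr (fun v => ?_)
  congr 1
  funext i
  refine Fin.cases ?_ ?_ i
  · rfl
  · intro j
    rfl

/-- context with the recursion value removed -/
theorem PolyTime.skip {k : ℕ} {f : (Fin (k + 1) → List Bool) → List Bool}
    (hf : PolyTime (k + 1) f) :
    PolyTime (k + 2) (fun w => f (Fin.cons (w 0) (fun i => w i.succ.succ))) := by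
  have := PolyTime.comp (k + 2) (k + 1) f (Fin.cons (fun w => w 0) (fun i w => w i.succ.succ)) hf
    (by
      intro i
      refine Fin.cases ?_ ?_ i
      · exact PolyTime.proj (k + 2) 0
      · intro j
        exact PolyTime.proj (k + 2) j.succ.succ)
  refine this.congr (fun v => ?_)
  congr 1
  funext i
  refine Fin.cases ?_ ?_ i
  · rfl
  · intro j
    rfl

/-- bounded concatenation -/
theorem PolyTime.flatMap {k : ℕ} {N : (Fin k → List Bool) → ℕ}
    {f : (Fin (k + 1) → List Bool) → List Bool} (hN : PN k N) (hf : PolyTime (k + 1) f) :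
    PolyTime k (fun v => (List.range (N v)).flatMap (fun t => f (Fin.cons (un t) v))) := by
  obtain ⟨C, d, hC⟩ := hf.length_bound
  refine PolyTime.natRec (g := fun _ => [])
    (h := fun w => w 1 ++ f (Fin.cons (w 0) (fun i => w i.succ.succ)))
    C (d + 1) (fun n v => (List.range n).flatMap (fun t => f (Fin.cons (un t) v))) hN
    (PolyTime.nil k)
    (PolyTime.append (PolyTime.proj (k + 2) 1) (PolyTime.skip hf)) (fun v => by simp)
    (fun n v => ?_) (fun n v => ?_)
  · rw [List.range_succ, List.flatMap_append]
    simp only [List.flatMap_cons, List.flatMap_nil, List.append_nil]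
    rfl
  · set S := ∑ i, (v i).length with hS
    have key : ∀ m, m ≤ n →
        ((List.range m).flatMap (fun t => f (Fin.cons (un t) v))).length ≤
          m * (C * (1 + n + S) ^ d) := by
      intro m hm
      induction m with
      | zero => simp
      | succ m ih =>
        rw [List.range_succ, List.flatMap_append]
        simp only [List.flatMap_cons, List.flatMap_nil, List.append_nil, List.length_append]
        have h1 := ih (by omega)
        have h2 := hC (Fin.cons (un m) v)
        rw [Fin.sum_univ_succ] at h2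
        simp only [Fin.cons_zero, Fin.cons_succ, un_length] at h2
        have h3 : C * (1 + (m + ∑ i, (v i).length)) ^ d ≤ C * (1 + n + S) ^ d :=
          Nat.mul_le_mul_left _ (Nat.pow_le_pow_left (by omega) d)
        rw [Nat.succ_mul]
        omega
    calc _ ≤ n * (C * (1 + n + S) ^ d) := key n le_rfl
      _ ≤ (1 + n + S) * (C * (1 + n + S) ^ d) := Nat.mul_le_mul_right _ (by omega)
      _ = C * (1 + n + S) ^ (d + 1) := by ring

theorem un_sum_range (n : ℕ) (F : ℕ → ℕ) :
    un (∑ t ∈ Finset.range n, F t) = (List.range n).flatMap (fun t => un (F t)) := by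
  induction n with
  | zero => simp [un]
  | succ n ih => rw [Finset.sum_range_succ, un_add, ih, List.range_succ]; simp

/-- bounded sum; the bound variable is the new argument `0`, given in unary -/
theorem PN.sum {k : ℕ} {N : (Fin k → List Bool) → ℕ} {F : (Fin (k + 1) → List Bool) → ℕ}
    (hN : PN k N) (hF : PN (k + 1) F) :
    PN k (fun v => ∑ t ∈ Finset.range (N v), F (Fin.cons (un t) v)) := by
  refine (PolyTime.flatMap hN hF).congr (fun v => ?_)
  rw [un_sum_range]

theorem div_eq_sum (a b : ℕ) : a / b =
    ∑ q ∈ Finset.range a, if b = 0 then 0 else if (q + 1) * b ≤ a then 1 else 0 := by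
  rcases Nat.eq_zero_or_pos b with hb | hb
  · simp [hb]
  · have h1 : ∀ q, (if b = 0 then 0 else if (q + 1) * b ≤ a then 1 else 0) =
        (if q < a / b then 1 else 0) := by
      intro q
      rw [if_neg (by omega)]
      have : (q + 1) * b ≤ a ↔ q < a / b := by
        rw [← Nat.le_div_iff_mul_le hb]
        exact Iff.rfl
      simp only [this]
    simp only [h1]
    rw [← Finset.sum_filter, Finset.sum_const, smul_eq_mul, mul_one]
    have : Finset.filter (fun q => q < a / b) (Finset.range a) = Finset.range (a / b) := by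
      ext q
      simp only [Finset.mem_filter, Finset.mem_range]
      have := Nat.div_le_self a b
      omega
    rw [this, Finset.card_range]

theorem PN.div {k : ℕ} {F G : (Fin k → List Bool) → ℕ} (hF : PN k F) (hG : PN k G) :
    PN k (fun v => F v / G v) := by
  have h1 : PN (k + 1) (fun w => if G (fun i => w i.succ) = 0 then 0 else
      if ((w 0).length + 1) * G (fun i => w i.succ) ≤ F (fun i => w i.succ) then 1 else 0) :=
    PN.ite_eq (PN.lift1 hG) (PN.const _ 0) (PN.const _ 0)
      (PN.ite_le (PN.mul (PN.add (PN.len (PolyTime.proj (k + 1) 0)) (PN.const _ 1))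
        (PN.lift1 hG)) (PN.lift1 hF) (PN.const _ 1) (PN.const _ 0))
  refine (PN.sum hF h1).congr (fun v => ?_)
  rw [div_eq_sum]
  refine Finset.sum_congr rfl (fun t _ => ?_)
  simp only [Fin.cons_zero, Fin.cons_succ, un_length]

theorem PN.mod {k : ℕ} {F G : (Fin k → List Bool) → ℕ} (hF : PN k F) (hG : PN k G) :
    PN k (fun v => F v % G v) := by
  refine (PN.sub hF (PN.mul hG (PN.div hF hG))).congr (fun v => ?_)
  have := Nat.div_add_mod (F v) (G v)
  omega

theorem sqrt_eq_sum (a : ℕ) : Nat.sqrt a =
    ∑ q ∈ Finset.range a, if (q + 1) * (q + 1) ≤ a then 1 else 0 := by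
  have h1 : ∀ q, (if (q + 1) * (q + 1) ≤ a then 1 else 0) =
      (if q < Nat.sqrt a then 1 else 0) := by
    intro q
    have : (q + 1) * (q + 1) ≤ a ↔ q < Nat.sqrt a := by
      rw [← Nat.le_sqrt]
      exact Iff.rfl
    simp only [this]
  simp only [h1]
  rw [← Finset.sum_filter, Finset.sum_const, smul_eq_mul, mul_one]
  have : Finset.filter (fun q => q < Nat.sqrt a) (Finset.range a) = Finset.range (Nat.sqrt a) := by
    ext q
    simp only [Finset.mem_filter, Finset.mem_range]
    have := Nat.sqrt_le_self a
    omega
  rw [this, Finset.card_range]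

theorem PN.sqrt {k : ℕ} {F : (Fin k → List Bool) → ℕ} (hF : PN k F) :
    PN k (fun v => Nat.sqrt (F v)) := by
  have h1 : PN (k + 1) (fun w =>
      if ((w 0).length + 1) * ((w 0).length + 1) ≤ F (fun i => w i.succ) then 1 else 0) := by
    have h2 : PN (k + 1) (fun w => (w 0).length + 1) :=
      PN.add (PN.len (PolyTime.proj (k + 1) 0)) (PN.const _ 1)
    exact PN.ite_le (PN.mul h2 h2) (PN.lift1 hF) (PN.const _ 1) (PN.const _ 0)
  refine (PN.sum hF h1).congr (fun v => ?_)
  rw [sqrt_eq_sum]
  refine Finset.sum_congr rfl (fun t _ => ?_)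
  simp only [Fin.cons_zero, Fin.cons_succ, un_length]

theorem lead_nil : lead [] = 0 := rfl

theorem lead_true (w : List Bool) : Vale.Agent.P370.lead (true :: w) =
    Vale.Agent.P370.lead w + 1 := by
  unfold Vale.Agent.P370.lead
  simp

theorem lead_false (w : List Bool) : Vale.Agent.P370.lead (false :: w) = 0 := by
  unfold Vale.Agent.P370.lead
  simp

theorem PN.lead {k : ℕ} {f : (Fin k → List Bool) → List Bool} (hf : PolyTime k f) :
    PN k (fun v => Vale.Agent.P370.lead (f v)) := by
  refine PolyTime.rec' (h := fun b w => if b then true :: w 1 else []) (g := fun _ => []) 1 1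
    (fun y _ => un (Vale.Agent.P370.lead y)) hf (PolyTime.nil k)
    (fun b => ?_) (fun v => rfl) (fun b y v => ?_) ?_
  · cases b
    · exact PolyTime.nil _
    · exact PolyTime.cons' true (PolyTime.proj (k + 2) 1)
  · cases b <;> rfl
  · intro y v
    simp only [un_length, one_mul, pow_one]
    have : ∀ y : List Bool, Vale.Agent.P370.lead y ≤ y.length := by
      intro y
      induction y with
      | nil => simp [Vale.Agent.P370.lead_nil]
      | cons b y ih =>
        cases b <;> simp [Vale.Agent.P370.lead_false, Vale.Agent.P370.lead_true]; omega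
    have := this y
    omega

theorem PN.headD {k : ℕ} {f : (Fin k → List Bool) → List Bool} (hf : PolyTime k f) :
    PN k (fun v => if (f v).headD false = true then 1 else 0) := by
  refine PolyTime.rec' (h := fun b _ => if b then [true] else []) (g := fun _ => []) 1 1
    (fun y _ => un (if y.headD false = true then 1 else 0)) hf (PolyTime.nil k)
    (fun b => ?_) (fun v => rfl) (fun b y v => ?_) ?_
  · cases b
    · exact PolyTime.nil _
    · exact PolyTime.const _ [true]
  · cases b <;> rfl
  · intro y v
    simp only [un_length, one_mul, pow_one]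
    split_ifs <;> omega

/-- binary increment, least significant bit first -/
def inc : List Bool → List Bool
  | [] => [true]
  | false :: y => true :: y
  | true :: y => false :: inc y

theorem inc_bits (n : ℕ) : (n + 1).bits = inc n.bits := by
  induction n using Nat.binaryRec' with
  | zero => simp [inc]
  | bit b n h ih =>
    cases b
    · rw [Nat.bits_append_bit n false h]
      simp only [inc]
      have : Nat.bit false n + 1 = Nat.bit true n := by simp [Nat.bit_val]
      rw [this, Nat.bits_append_bit n true (fun _ => rfl)]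
    · rw [Nat.bits_append_bit n true h]
      simp only [inc]
      have : Nat.bit true n + 1 = Nat.bit false (n + 1) := by simp [Nat.bit_val]; ring
      rw [this, Nat.bits_append_bit (n + 1) false (fun h => by omega), ih]

theorem inc_length (y : List Bool) : (inc y).length ≤ y.length + 1 := by
  induction y with
  | nil => simp [inc]
  | cons b y ih => cases b <;> simp [inc]; omega

theorem PolyTime.inc' : PolyTime 1 (fun v => inc (v 0)) := by
  have := PolyTime.rec' (k := 1) (e := fun v => v 0)
    (h := fun b w => if b then false :: w 1 else true :: w 0)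
    (g := fun _ => [true]) 1 1 (fun y _ => inc y) (PolyTime.proj 1 0) (PolyTime.const 1 [true])
    (fun b => ?_) (fun v => rfl) (fun b y v => ?_) ?_
  · exact this
  · cases b
    · exact PolyTime.cons' true (PolyTime.proj 3 0)
    · exact PolyTime.cons' false (PolyTime.proj 3 1)
  · cases b <;> rfl
  · intro y v
    have := inc_length y
    simp only [one_mul, pow_one]
    omega

theorem bits_length (n : ℕ) : n.bits.length ≤ n := by
  induction n with
  | zero => simp
  | succ n ih =>
    rw [inc_bits]
    have := inc_length n.bits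
    omega

theorem PolyTime.bits {k : ℕ} {F : (Fin k → List Bool) → ℕ} (hF : PN k F) :
    PolyTime k (fun v => (F v).bits) := by
  refine PolyTime.natRec (g := fun _ => []) (h := fun w => inc (w 1)) 1 1 (fun n _ => n.bits) hF
    (PolyTime.nil k) ?_ (fun v => by simp) (fun n v => ?_) (fun n v => ?_)
  · have := PolyTime.comp1 PolyTime.inc' (PolyTime.proj (k + 2) 1)
    simpa using this
  · rw [inc_bits]
    rfl
  · have := bits_length n
    simp only [one_mul, pow_one]
    omega

theorem PolyTime.encNat {k : ℕ} {F : (Fin k → List Bool) → ℕ} (hF : PN k F) :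
    PolyTime k (fun v => Vale.Agent.P370.encNat (F v)) := by
  refine PolyTime.rec' (h := fun b w => true :: b :: w 1) (g := fun _ => [false]) 2 1
    (fun y _ => y.flatMap (fun b => [true, b]) ++ [false]) (PolyTime.bits hF)
    (PolyTime.const k [false]) (fun b => PolyTime.cons' _ (PolyTime.cons' _ (PolyTime.proj _ 1)))
    (fun v => by simp) (fun b y v => by simp) ?_
  intro y v
  simp only [pow_one, List.length_append, List.length_flatMap, List.length_cons, List.length_nil]
  simp
  omega

end Vale.Agent.P370
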